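import Vale.Agent.P237.Petty.Cor.Band20.Cell
import Vale.Agent.P237.Petty.Cor.Band20.N20a.Cert1
import Vale.Agent.P237.Petty.Cor.Band20.N20a.Cert2
import Vale.Agent.P237.Petty.Cor.Band20.N20a.Cert3
import Vale.Agent.P237.Petty.Cor.Band20.N20a.Cert4
import Vale.Agent.P237.Petty.Cor.Band20.N20a.Cert5
import Vale.Agent.P237.Petty.Cor.Band20.N20a.Cert6
import Vale.Agent.P237.Petty.Cor.Band20.N20a.Cert7
import Vale.Agent.P237.Petty.Cor.Band20.N20a.Cert8
import Vale.Agent.P237.Petty.Cor.Band20.N20a.Cert9

/-!
# P237: the cell, dimensions 20 to 24, values 119/50 to 31/10 over the dimension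
-/

namespace Vale.Agent.P237.Petty.Cor.Band20.N20a

theorem good : Good data := by
  constructor
  · decide +kernel
  ·
    exact ⟨
      .leaf,
      Few.certify_of_quick (by decide +kernel)⟩
  ·
    exact ⟨
      .leaf,
      Few.certify_of_quick (by decide +kernel)⟩
  ·
    exact ⟨
      .leaf,
      Few.certify_of_quick (by decide +kernel)⟩
  ·
    exact ⟨
      (.split 0 .leaf .leaf),
      Few.certify_of_quick (by decide +kernel)⟩
  ·
    exact ⟨
      (.split 0 (.split 0 (.split 0 .leaf (.split 0 (.split 0 .leaf (.split 0 .leaf .leaf))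
      .leaf)) .leaf) .leaf),
      Few.certify_of_quick (by decide +kernel)⟩
  ·
    exact ⟨
      .leaf,
      Few.certify_of_quick (by decide +kernel)⟩
  ·
    exact ⟨
      (.split 0 (.split 0 (.split 0 (.split 0 .leaf .leaf) .leaf) .leaf) .leaf),
      Few.certify_of_quick (by decide +kernel)⟩
  ·
    exact ⟨
      (.split 0 (.split 0 (.split 0 (.split 0 (.split 0 (.split 0 .leaf .leaf) .leaf) (.split 0
      (.split 0 .leaf .leaf) .leaf)) .leaf) .leaf) (.split 0 .leaf .leaf)),
      Few.certify_of_quick (by decide +kernel)⟩
  · intro P hP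
    simp only [data, List.mem_cons, List.not_mem_nil, or_false] at hP
    rcases hP with rfl | rfl | rfl | rfl | rfl | rfl | rfl | rfl | rfl | rfl | rfl | rfl |
      rfl | rfl | rfl | rfl | rfl | rfl | rfl | rfl | rfl | rfl | rfl | rfl |
      rfl
    · exact checks0
    · exact checks1
    · exact checks2
    · exact checks3
    · exact checks4
    · exact checks5
    · exact checks6
    · exact checks7
    · exact checks8
    · exact checks9
    · exact checks10
    · exact checks11
    · exact checks12
    · exact checks13
    · exact checks14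
    · exact checks15
    · exact checks16
    · exact checks17
    · exact checks18
    · exact checks19
    · exact checks20
    · exact checks21
    · exact checks22
    · exact checks23
    · exact checks24

theorem mean : okMean data = true := by
  decide +kernel

/-- The cell, dimensions 20 to 24, values 119/50 to 31/10 over the dimension. -/
theorem corCell {p : ℕ} (h1 : 20 ≤ p + 2) (h2 : p + 2 ≤ 24) :
    CorCell p ((119 / 50) / ((p : ℝ) + 2)) ((31 / 10) / ((p : ℝ) + 2)) := by
  have h := corCell_of_data good mean (p := p) (by simp only [data]; omega)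
    (by simp only [data]; omega) (by decide +kernel)
  norm_num [data] at h ⊢
  exact h

end Vale.Agent.P237.Petty.Cor.Band20.N20a
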